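import Vale.Agent.N238.Up

/-!
# N238 / Low : the lower bound with one pool of primes
-/

set_option autoImplicit false

namespace Vale.Agent.N238

open Finset Filter Vale.Agent.P238 Vale.Agent.P238.Full

theorem levels2 {L k P B w q0 : ℕ} (T : Finset ℕ) (hk : 4 ≤ k) (hP : 1 ≤ P) (hw : 1 ≤ w)
    (hwB : w ≤ B) (hT : ∀ t ∈ T, t.Prime ∧ P ≤ t ∧ t ≤ B) (hcard : L + k ≤ T.card)
    (hPL : 2 * B ^ (L + w) ≤ P ^ (k / 2)) (hq0 : 2 * B ^ L ≤ q0) :
    ∀ i, i ≤ L → ∀ Q, 1 ≤ Q → Q ≤ 2 * B ^ (L - i) → (T.filter (· ∣ Q)).card ≤ L - i →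
      Nonempty (Data Q ((2 * B ^ (L + w) * k) ^ i) (((i : ℝ) + 1) / (w : ℝ) ^ i)
        ((1 / 2 : ℝ) ^ i) (k ^ i * q0)) := by
  classical
  have hB : 1 ≤ B := hw.trans hwB
  intro i
  induction i with
  | zero =>
    intro _ Q hQ1 hQ _
    have h := Full.base Q hQ1 (q := q0) (by
      refine hQ.trans (le_trans ?_ hq0)
      simp)
    simpa using h
  | succ i ih =>
    intro hi Q hQ1 hQ hQc
    set N := 2 * B ^ (L + w) with hNdef
    have hN1 : 1 ≤ N := Nat.one_le_iff_ne_zero.2 (by positivity)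
    have hfree : k ≤ (T.filter (fun t => ¬ t ∣ Q)).card := by
      have h1 := Finset.card_filter_add_card_filter_not (s := T) (fun t => t ∣ Q)
      omega
    obtain ⟨U, hU, hUc⟩ := Finset.exists_subset_card_eq hfree
    let p : Fin k → ℕ := fun j => U.orderEmbOfFin hUc j
    have hpinj : Function.Injective p := (U.orderEmbOfFin hUc).injective
    have hpU : ∀ j, p j ∈ T ∧ ¬ p j ∣ Q := fun j =>
      Finset.mem_filter.1 (hU (U.orderEmbOfFin_mem hUc j))
    have hpp : ∀ j, (p j).Prime := fun j => (hT _ (hpU j).1).1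
    have hpP : ∀ j, P ≤ p j := fun j => (hT _ (hpU j).1).2.1
    have hpB : ∀ j, p j ≤ B := fun j => (hT _ (hpU j).1).2.2
    have hD : ∀ j : Fin k, Nonempty (Data (Q * p j) ((N * k) ^ i)
        (((i : ℝ) + 1) / (w : ℝ) ^ i) ((1 / 2 : ℝ) ^ i) (k ^ i * q0)) := by
      intro j
      apply ih (by omega) (Q * p j)
      · exact Nat.mul_pos hQ1 (hpp j).pos
      · have e : L - i = (L - (i + 1)) + 1 := by omega
        rw [e, pow_succ, ← mul_assoc]
        exact Nat.mul_le_mul hQ (hpB j)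
      · have hsub : T.filter (· ∣ Q * p j) ⊆ insert (p j) (T.filter (· ∣ Q)) := by
          intro t ht
          obtain ⟨ht1, ht2⟩ := Finset.mem_filter.1 ht
          rcases (Nat.Prime.dvd_mul (hT t ht1).1).1 ht2 with h | h
          · exact Finset.mem_insert_of_mem (Finset.mem_filter.2 ⟨ht1, h⟩)
          · rw [(Nat.prime_dvd_prime_iff_eq (hT t ht1).1 (hpp j)).1 h]
            exact Finset.mem_insert_self _ _
        have h1 := Finset.card_le_card hsub
        have h2 := Finset.card_insert_le (p j) (T.filter (· ∣ Q))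
        omega
    have hstep := Full.step (Q := Q) (n := (N * k) ^ i) (k := k) (N := N)
      (S := 2 * B ^ (L - (i + 1) + w)) (w := w)
      (q := k ^ i * q0) (κ := ((i : ℝ) + 1) / (w : ℝ) ^ i) (δ := (1 / 2 : ℝ) ^ i)
      p hk (Nat.one_le_iff_ne_zero.2 (by positivity)) hQ1 hw
      (by positivity) (pow_le_one₀ (by norm_num) (by norm_num))
      (fun j j' hjj => (Nat.coprime_primes (hpp j) (hpp j')).2 (fun h => hjj (hpinj h)))
      (fun j => (Nat.Prime.coprime_iff_not_dvd (hpp j)).2 (hpU j).2)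
      (fun j => (hpp j).pos)
      (by
        intro A hA
        have h1 : ∏ j ∈ A, p j ≤ B ^ A.card := by
          apply Finset.prod_le_pow_card
          intro j _
          exact hpB j
        have h2 : B ^ A.card ≤ B ^ w := Nat.pow_le_pow_right hB hA.le
        rw [pow_add, ← mul_assoc]
        exact Nat.mul_le_mul hQ (h1.trans h2))
      (by
        intro A hA
        have h1 : P ^ A.card ≤ ∏ j ∈ A, p j := by
          rw [← Finset.prod_const]
          apply Finset.prod_le_prod'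
          intro j _
          exact hpP j
        have h2 : P ^ (k / 2) ≤ P ^ A.card := Nat.pow_le_pow_right hP (by omega)
        exact hPL.trans (h2.trans h1))
      hN1 hD
    obtain ⟨D⟩ := hstep
    have hκ : ((i : ℝ) + 1) / (w : ℝ) ^ i / w +
        ((2 * B ^ (L - (i + 1) + w) : ℕ) : ℝ) / (N : ℝ) ≤
        (((i + 1 : ℕ) : ℝ) + 1) / (w : ℝ) ^ (i + 1) := by
      have hwpos : (0 : ℝ) < w := by exact_mod_cast hw
      have hBpos : (0 : ℝ) < B := by exact_mod_cast hB
      have e1 : ((2 * B ^ (L - (i + 1) + w) : ℕ) : ℝ) / (N : ℝ) = 1 / (B : ℝ) ^ (i + 1) := by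
        have e : L + w = (L - (i + 1) + w) + (i + 1) := by omega
        rw [hNdef, e, pow_add B (L - (i + 1) + w)]
        push_cast
        field_simp
      have e2 : 1 / (B : ℝ) ^ (i + 1) ≤ 1 / (w : ℝ) ^ (i + 1) := by
        apply one_div_le_one_div_of_le (by positivity)
        exact pow_le_pow_left₀ hwpos.le (by exact_mod_cast hwB) _
      rw [e1, div_div, ← pow_succ]
      push_cast
      rw [add_div ((i : ℝ) + 1) 1]
      linarith only [e2]
    have h := Data.relax hκ D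
    have e1 : (N * k) ^ (i + 1) = N * k * (N * k) ^ i := pow_succ' _ _
    have e2 : ((1 / 2 : ℝ)) ^ (i + 1) = (1 / 2 : ℝ) ^ i / 2 := by rw [pow_succ]; ring
    have e3 : k ^ (i + 1) * q0 = k * (k ^ i * q0) := by rw [pow_succ']; ring
    rw [e1, e2, e3]
    exact h

/-- The explicit lower bound. -/
theorem lower_explicit {L w B n : ℕ} (hL : 16 ≤ L) (hw : 1 ≤ w) (hwL : w ≤ L)
    (hB : Nat.nth Nat.Prime (12 * L) ≤ B) (hB2 : B ≤ L ^ 2)
    (hn : L ^ 4 * (20 * L * B ^ (L + w)) ^ L ≤ n) :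
    ((w : ℝ) / 2) ^ L / (L : ℝ) ^ 6 ≤ c1 (binED n) := by
  classical
  have hmono : StrictMono (Nat.nth Nat.Prime) := Nat.nth_strictMono Nat.infinite_setOfPred_prime
  have hprime : ∀ a, Nat.Prime (Nat.nth Nat.Prime a) := fun a =>
    Nat.nth_mem_of_infinite Nat.infinite_setOfPred_prime a
  have hge : ∀ a, a ≤ Nat.nth Nat.Prime a := fun a => hmono.le_apply
  have hLB : L ≤ B := le_trans (by omega) ((hge (12 * L)).trans hB)
  set T : Finset ℕ := (Finset.Ico L (12 * L)).image (Nat.nth Nat.Prime) with hTdef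
  have hT : ∀ t ∈ T, t.Prime ∧ L ≤ t ∧ t ≤ B := by
    intro t ht
    obtain ⟨a, ha, rfl⟩ := Finset.mem_image.1 ht
    obtain ⟨h1, h2⟩ := Finset.mem_Ico.1 ha
    exact ⟨hprime a, h1.trans (hge a), (hmono.monotone h2.le).trans hB⟩
  have hcard : L + 10 * L ≤ T.card := by
    rw [hTdef, Finset.card_image_of_injective _ hmono.injective, Nat.card_Ico]
    omega
  have hPL : 2 * B ^ (L + w) ≤ L ^ (10 * L / 2) := by
    have e : 10 * L / 2 = L + 2 * (L + L) := by omega
    rw [e, pow_add L L, pow_mul]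
    refine Nat.mul_le_mul ?_ ?_
    · exact le_trans (by omega) (Nat.le_self_pow (by omega) L)
    · exact (Nat.pow_le_pow_left hB2 _).trans
        (Nat.pow_le_pow_right (by positivity) (by omega))
  obtain ⟨D⟩ := levels2 (L := L) (k := 10 * L) (P := L) (B := B) (w := w) (q0 := 2 * B ^ L) T
    (by omega) (by omega) hw (hwL.trans hLB) hT hcard hPL le_rfl L le_rfl 2 (by norm_num)
    (by simp) (by
      rw [Nat.sub_self, Nat.le_zero, Finset.card_eq_zero, Finset.filter_eq_empty_iff]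
      intro t ht h
      have h1 := Nat.le_of_dvd (by norm_num) h
      have h2 := (hT t ht).2.1
      omega)
  have hB0 : 0 < B := by omega
  have hwR : (0 : ℝ) < w := by exact_mod_cast hw
  have hLR : (16 : ℝ) ≤ L := by exact_mod_cast hL
  set d := (10 * L + B) * L + 1 with hd
  have hq : (10 * L) ^ L * (2 * B ^ L) ≤ 2 ^ d := by
    calc (10 * L) ^ L * (2 * B ^ L) ≤ (2 ^ (10 * L)) ^ L * (2 * (2 ^ B) ^ L) :=
          Nat.mul_le_mul (Nat.pow_le_pow_left Nat.lt_two_pow_self.le L)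
            (Nat.mul_le_mul_left 2 (Nat.pow_le_pow_left Nat.lt_two_pow_self.le L))
      _ = 2 ^ d := by rw [hd, ← pow_mul, ← pow_mul]; ring
  have hd4 : 2 * d + 3 ≤ L ^ 4 := by
    have h1 : (10 * L + B) * L ≤ (10 * L + L ^ 2) * L := Nat.mul_le_mul_right _ (by omega)
    have h2 : 16 * L ^ 3 ≤ L ^ 4 := by
      calc 16 * L ^ 3 ≤ L * L ^ 3 := Nat.mul_le_mul_right _ hL
        _ = L ^ 4 := by ring
    have h3 : 16 * L ^ 2 ≤ L ^ 3 := by
      calc 16 * L ^ 2 ≤ L * L ^ 2 := Nat.mul_le_mul_right _ hL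
        _ = L ^ 3 := by ring
    have h4 : 1 ≤ L ^ 2 := Nat.one_le_pow _ _ (by omega)
    have h5 : (10 * L + L ^ 2) * L = 10 * L ^ 2 + L ^ 3 := by ring
    omega
  have h1 := c1_ge_of_data (d := d) (n := n) (Nat.one_le_iff_ne_zero.2 (by positivity))
    (by positivity) D hq (by
      refine le_trans ?_ hn
      refine Nat.mul_le_mul hd4 (le_of_eq ?_)
      congr 1
      ring)
  refine le_trans ?_ h1
  have e1 : (1 / 2 : ℝ) ^ L / (8 * ((2 * d + 3 : ℕ) : ℝ) * (((L : ℝ) + 1) / (w : ℝ) ^ L)) =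
      ((w : ℝ) / 2) ^ L / (8 * ((L : ℝ) + 1) * ((2 * d + 3 : ℕ) : ℝ)) := by
    rw [div_pow, div_pow, one_pow]
    field_simp
  rw [e1]
  apply div_le_div_of_nonneg_left (by positivity) (by positivity)
  have h2 : ((2 * d + 3 : ℕ) : ℝ) ≤ (L : ℝ) ^ 4 := by exact_mod_cast hd4
  have h3 : 8 * ((L : ℝ) + 1) ≤ (L : ℝ) ^ 2 := by nlinarith
  calc 8 * ((L : ℝ) + 1) * ((2 * d + 3 : ℕ) : ℝ) ≤ (L : ℝ) ^ 2 * (L : ℝ) ^ 4 :=
        mul_le_mul h3 h2 (by positivity) (by positivity)
    _ = (L : ℝ) ^ 6 := by ring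

/-- The `12 L`-th prime is at most `L ^ (1 + η)`. -/
theorem nth_prime_le {η : ℝ} (hη : 0 < η) : ∀ᶠ L : ℕ in atTop,
    (Nat.nth Nat.Prime (12 * L) : ℝ) ≤ (L : ℝ) ^ (1 + η) := by
  have h0 := (isLittleO_log_rpow_atTop hη).bound (c := 1 / (50 * (1 + η))) (by positivity)
  filter_upwards [tendsto_natCast_atTop_atTop.eventually h0, eventually_ge_atTop 257]
    with L h1 hL
  have hLR : (257 : ℝ) ≤ L := by exact_mod_cast hL
  have hL0 : (0 : ℝ) < L := by linarith
  have hlogL : 0 < Real.log L := Real.log_pos (by linarith)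
  have hpow : (0 : ℝ) < (L : ℝ) ^ η := Real.rpow_pos_of_pos hL0 _
  rw [Real.norm_eq_abs, Real.norm_eq_abs, abs_of_pos hlogL, abs_of_pos hpow] at h1
  have h1' : 50 * (1 + η) * Real.log L ≤ (L : ℝ) ^ η := by
    rw [one_div, inv_mul_eq_div, le_div_iff₀ (by positivity)] at h1
    linarith
  set x := (L : ℝ) ^ (1 + η) with hx
  have hxe : x = L * (L : ℝ) ^ η := by rw [hx, Real.rpow_add hL0, Real.rpow_one]
  have hpow1 : (1 : ℝ) ≤ (L : ℝ) ^ η := Real.one_le_rpow (by linarith) hη.le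
  have hxL : (L : ℝ) ≤ x := by rw [hxe]; nlinarith
  set n := ⌊x⌋₊ with hn
  have hn1 : (n : ℝ) ≤ x := Nat.floor_le (by linarith)
  have hn2 : x < n + 1 := Nat.lt_floor_add_one x
  have hnR : (256 : ℝ) ≤ n := by linarith
  have hlogn : Real.log n ≤ (1 + η) * Real.log L := by
    rw [← Real.log_rpow hL0]
    exact Real.log_le_log (by linarith) hn1
  have hl2 : 0.6931471803 < Real.log 2 := Real.log_two_gt_d9
  have hl2' : Real.log 2 < 0.6931471808 := Real.log_two_lt_d9
  have hlog1 : Real.log ((n : ℝ) + 1) ≤ (n + 1) / 16 + 2 := by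
    have h1 : Real.log ((n : ℝ) + 1) = Real.log (((n : ℝ) + 1) / 16) + Real.log 16 := by
      rw [← Real.log_mul (by positivity) (by norm_num)]
      congr 1
      ring
    have h2 : Real.log (16 : ℝ) = 4 * Real.log 2 := by
      rw [show (16 : ℝ) = 2 ^ 4 by norm_num, Real.log_pow]; norm_num
    have h3 : Real.log (((n : ℝ) + 1) / 16) ≤ ((n : ℝ) + 1) / 16 - 1 :=
      Real.log_le_sub_one_of_pos (by positivity)
    rw [h1, h2]
    linarith only [hl2', h3]
  have hpi : (n * Real.log 2 - Real.log (n + 1)) / Real.log n ≤ (Nat.primeCounting n : ℝ) :=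
    Chebyshev.pi_ge n
  have hnum : (n : ℝ) / 2 ≤ n * Real.log 2 - Real.log (n + 1) := by
    nlinarith only [hnR, hl2, hlog1]
  have hlog_pos : 0 < Real.log (n : ℝ) := Real.log_pos (by linarith only [hnR])
  have h6 : 12 * L < Nat.primeCounting n := by
    by_contra hcon
    have h7 : (Nat.primeCounting n : ℝ) ≤ 12 * L := by exact_mod_cast not_lt.1 hcon
    rw [div_le_iff₀ hlog_pos] at hpi
    have h8 : (Nat.primeCounting n : ℝ) * Real.log n ≤ 12 * L * ((1 + η) * Real.log L) :=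
      mul_le_mul h7 hlogn hlog_pos.le (by positivity)
    have h9 : L * (50 * (1 + η) * Real.log L) ≤ x := by
      rw [hxe]
      exact mul_le_mul_of_nonneg_left h1' hL0.le
    nlinarith
  have h7 : Nat.nth Nat.Prime (12 * L) < n + 1 := by
    apply Nat.nth_lt_of_lt_count
    rw [← Nat.primeCounting', Nat.primeCounting'] at *
    exact h6
  have h8 : (Nat.nth Nat.Prime (12 * L) : ℝ) ≤ n := by exact_mod_cast Nat.lt_succ_iff.1 h7
  linarith

end Vale.Agent.N238
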