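import Vale.Agent.N238.Low

/-!
# N238 / Main : asymptotic form of the lower bound, both bounds
-/

set_option autoImplicit false

namespace Vale.Agent.N238

open Finset Filter Asymptotics Vale.Agent.P238 Vale.Agent.P238.Full Vale.Agent.P238.H360

theorem log_twenty : Real.log 20 ≤ 3 := by
  have h2 : Real.log 20 ≤ Real.log (2 ^ 4 * (5 / 4)) := le_of_eq (by norm_num)
  rw [Real.log_mul (by norm_num) (by norm_num), Real.log_pow] at h2
  have h3 := Real.log_two_lt_d9
  have h4 : Real.log (5 / 4) ≤ 0.2274 := by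
    rw [Real.log_le_iff_le_exp (by norm_num)]
    have := Real.quadratic_le_exp_of_nonneg (x := 0.2274) (by norm_num)
    refine le_trans ?_ this
    norm_num
  push_cast at h2
  linarith

theorem len_real {η L l w b t : ℝ} (hη : 0 < η) (hη1 : η ≤ 1) (hL : 16 ≤ L) (hl : 1 ≤ l)
    (hw : w ≤ η / 4 * L) (hb0 : 0 ≤ b) (hb : b ≤ (1 + η / 4) * l) (ht : t ≤ 3)
    (hLη : 32 ≤ η * L) :
    4 * l + L * (t + l + (L + w) * b) ≤ (1 + η) * L ^ 2 * l := by
  have hL0 : 0 ≤ L := by linarith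
  have hw' : L + w ≤ (1 + η / 4) * L := by linarith
  have h5 : (L + w) * b ≤ ((1 + η / 4) * L) * ((1 + η / 4) * l) :=
    mul_le_mul hw' hb hb0 (by positivity)
  have h6 : (1 + η / 4) * (1 + η / 4) ≤ 1 + 3 * η / 4 := by nlinarith
  have hLl : 0 ≤ L * l := by positivity
  have h7 : (L + w) * b ≤ (1 + 3 * η / 4) * (L * l) := by
    refine h5.trans ?_
    have := mul_le_mul_of_nonneg_right h6 hLl
    linarith
  have h8 : L * ((L + w) * b) ≤ L * ((1 + 3 * η / 4) * (L * l)) :=
    mul_le_mul_of_nonneg_left h7 hL0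
  have h9 : L * t ≤ L * (3 * l) := mul_le_mul_of_nonneg_left (by linarith) hL0
  have h10 : 1 * l ≤ L * l := mul_le_mul_of_nonneg_right (by linarith) (by linarith)
  have h11 : 32 * (L * l) ≤ η * L * (L * l) := mul_le_mul_of_nonneg_right hLη hLl
  linarith

theorem alg_id {a b e u : ℝ} (hb : b ^ 2 = 2) (hb0 : 0 < b) :
    e ^ 3 / b * (a * u) = e * (b * e * a) * (e * u / 2) := by
  rw [div_mul_eq_mul_div, div_eq_iff hb0.ne']
  linear_combination (-(e ^ 3 * a * u / 2)) * hb

theorem lower_levels {η : ℝ} (hη : 0 < η) (hη1 : η ≤ 1) : ∀ᶠ L : ℕ in atTop, ∀ n : ℕ, 1 ≤ n →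
    (1 + η) * (L : ℝ) ^ 2 * Real.log L ≤ Real.log n →
    Real.exp ((1 - η) * (L * Real.log L)) ≤ c1 (binED n) := by
  obtain ⟨m, hm⟩ := exists_nat_ge (4 / η)
  have hm4 : (4 : ℝ) ≤ m := by
    refine le_trans ?_ hm
    rw [le_div_iff₀ hη]
    linarith
  have hm0 : (0 : ℝ) < m := by linarith
  have hmN : 0 < m := by exact_mod_cast hm0
  have hmη : 1 / (m : ℝ) ≤ η / 4 := by
    rw [div_le_iff₀ hη] at hm
    rw [div_le_div_iff₀ hm0 (by norm_num)]
    linarith
  filter_upwards [nth_prime_le (η := η / 4) (by positivity), eventually_ge_atTop 16,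
    eventually_ge_atTop (2 * m), tendsto_natCast_atTop_atTop.eventually_ge_atTop (32 / η),
    log_nat_atTop.eventually_ge_atTop (2 * Real.log (4 * m) / η),
    log_nat_atTop.eventually_ge_atTop 1] with L hB hL hLm hLη hlm hl1 n hn1 hn
  have hLR : (16 : ℝ) ≤ L := by exact_mod_cast hL
  have hL0 : (0 : ℝ) < L := by linarith
  set l := Real.log L with hl
  set B := Nat.nth Nat.Prime (12 * L) with hBdef
  set w := L / m with hw
  have hw2 : 2 ≤ w := (Nat.le_div_iff_mul_le hmN).2 hLm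
  have hwL : w ≤ L := Nat.div_le_self _ _
  have hwle : (w : ℝ) ≤ L / m := Nat.cast_div_le
  have hwge : (L : ℝ) / (2 * m) ≤ w := by
    have h1 : L < m * (w + 1) := Nat.lt_mul_div_succ L hmN
    have h2 : (L : ℝ) ≤ m * (w + 1) := by exact_mod_cast h1.le
    have h3 : (2 : ℝ) ≤ w := by exact_mod_cast hw2
    rw [div_le_iff₀ (by positivity)]
    nlinarith
  have hB0 : 0 < B := (Nat.nth_mem_of_infinite Nat.infinite_setOfPred_prime _).pos
  have hB0R : (0 : ℝ) < B := by exact_mod_cast hB0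
  have hB2 : B ≤ L ^ 2 := by
    have h1 : (L : ℝ) ^ (1 + η / 4) ≤ (L : ℝ) ^ ((2 : ℕ) : ℝ) :=
      Real.rpow_le_rpow_of_exponent_le (by linarith) (by push_cast; linarith)
    rw [Real.rpow_natCast] at h1
    exact_mod_cast hB.trans h1
  have hlogB : Real.log B ≤ (1 + η / 4) * l := by
    rw [hl, ← Real.log_rpow hL0]
    exact Real.log_le_log hB0R hB
  have hlogB0 : 0 ≤ Real.log B := Real.log_natCast_nonneg B
  have hLη' : 32 ≤ η * L := by
    rw [div_le_iff₀ hη] at hLη
    linarith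
  have hlen : L ^ 4 * (20 * L * B ^ (L + w)) ^ L ≤ n := by
    have hn0 : (0 : ℝ) < n := by exact_mod_cast hn1
    have h1 : (L : ℝ) ^ 4 * (20 * L * (B : ℝ) ^ (L + w)) ^ L ≤ n := by
      rw [← Real.log_le_log_iff (by positivity) hn0]
      refine le_trans ?_ hn
      rw [Real.log_mul (by positivity) (by positivity), Real.log_pow, Real.log_pow,
        Real.log_mul (by positivity) (by positivity), Real.log_mul (by positivity) (by positivity),
        Real.log_pow, ← hl]
      push_cast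
      refine len_real hη hη1 hLR hl1 ?_ hlogB0 hlogB log_twenty hLη'
      refine hwle.trans ?_
      rw [div_eq_mul_one_div, mul_comm]
      exact mul_le_mul_of_nonneg_right hmη hL0.le
    exact_mod_cast h1
  refine le_trans ?_ (lower_explicit hL (by omega) hwL le_rfl hB2 hlen)
  have hw0 : (0 : ℝ) < w := by exact_mod_cast (by omega : 0 < w)
  rw [← Real.le_log_iff_exp_le (by positivity), Real.log_div (by positivity) (by positivity),
    Real.log_pow, Real.log_pow, ← hl]
  have h1 : l - Real.log (4 * m) ≤ Real.log ((w : ℝ) / 2) := by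
    rw [hl, ← Real.log_div hL0.ne' (by positivity)]
    refine Real.log_le_log (by positivity) ?_
    have : (L : ℝ) / (4 * m) = L / (2 * m) / 2 := by field_simp; ring
    rw [this]
    linarith
  have h2 : Real.log (4 * m) ≤ η / 2 * l := by
    rw [div_le_iff₀ hη] at hlm
    linarith
  have h3 : (L : ℝ) * (l - η / 2 * l) ≤ L * Real.log ((w : ℝ) / 2) :=
    mul_le_mul_of_nonneg_left (by linarith) hL0.le
  have h4 : 32 * l ≤ η * L * l := mul_le_mul_of_nonneg_right hLη' (by linarith)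
  push_cast
  linarith

/-- The choice of the number of levels. -/
theorem low_real {η : ℝ} (hη : 0 < η) (hη1 : η ≤ 1 / 2) (L0 : ℕ) : ∀ᶠ y : ℝ in atTop,
    ∃ L : ℕ, L0 ≤ L ∧ (1 + η) * (L : ℝ) ^ 2 * Real.log L ≤ y ∧
      (1 - η) ^ 3 / Real.sqrt 2 * Real.sqrt (y * Real.log y) ≤ L * Real.log L := by
  set c : ℝ := max (L0 : ℝ) (1 / η) + 1 with hc
  have hc1 : 1 ≤ c := by
    have : (0 : ℝ) ≤ max (L0 : ℝ) (1 / η) := le_max_of_le_left (Nat.cast_nonneg _)
    linarith
  filter_upwards [Real.tendsto_log_atTop.eventually_ge_atTop 2,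
    log_le_eventually (c := 1 / (2 * c ^ 2)) (by positivity),
    Real.tendsto_log_atTop.eventually (log_le_eventually (c := η / 2) (by positivity)),
    Real.tendsto_log_atTop.eventually_ge_atTop (2 * Real.log 8 / η),
    eventually_gt_atTop (0 : ℝ)] with y h1 h2 h3 h4 hy
  set u := Real.log y with hu
  have hu0 : 0 < u := by linarith
  have hs2 : Real.sqrt 2 ^ 2 = 2 := Real.sq_sqrt (by norm_num)
  have hs0 : 0 < Real.sqrt 2 := by positivity
  set z := Real.sqrt 2 * (1 - η) * Real.sqrt (y / u) with hz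
  have hη' : 0 < 1 - η := by linarith
  have hz0 : 0 < z := by positivity
  have hz2 : z ^ 2 = 2 * (1 - η) ^ 2 * (y / u) := by
    rw [hz, mul_pow, mul_pow, hs2, Real.sq_sqrt (by positivity)]
  have hq : (1 : ℝ) / 4 ≤ (1 - η) ^ 2 := by nlinarith
  have hq' : (1 - η) ^ 2 ≤ 1 := by nlinarith
  have hyu : 2 * c ^ 2 ≤ y / u := by
    rw [le_div_iff₀ hu0]
    rw [one_div, inv_mul_eq_div, le_div_iff₀ (by positivity)] at h2
    linarith
  have hyu0 : 0 < y / u := by positivity
  have hcz : c ≤ z := by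
    refine le_of_sq_le_sq ?_ hz0.le
    rw [hz2]
    nlinarith
  set L := ⌊z⌋₊ with hL
  have hL1 : (L : ℝ) ≤ z := Nat.floor_le hz0.le
  have hL2 : z < L + 1 := Nat.lt_floor_add_one z
  have hc2 : (L0 : ℝ) + 1 ≤ c := by rw [hc]; linarith [le_max_left (L0 : ℝ) (1 / η)]
  have hc3 : 1 / η + 1 ≤ c := by rw [hc]; linarith [le_max_right (L0 : ℝ) (1 / η)]
  have hL3 : (1 - η) * z ≤ L := by
    have : 1 ≤ η * z := by
      have h5 : 1 / η ≤ z := by linarith
      rw [div_le_iff₀ hη] at h5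
      linarith
    linarith
  have hL0 : (0 : ℝ) < L := lt_of_lt_of_le (by positivity) hL3
  have hLsq : (L : ℝ) ^ 2 ≤ z ^ 2 := pow_le_pow_left₀ hL0.le hL1 2
  have hlogL : Real.log L ≤ u / 2 := by
    have h5 : (L : ℝ) ^ 2 ≤ y := by
      refine hLsq.trans ?_
      rw [hz2]
      have h6 : y / u ≤ y / 2 := div_le_div_of_nonneg_left hy.le (by norm_num) h1
      nlinarith
    have h6 := Real.log_le_log (by positivity) h5
    rw [Real.log_pow] at h6
    push_cast at h6
    linarith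
  have hlogL' : (1 - η) * u / 2 ≤ Real.log L := by
    have h5 : y / (8 * u) ≤ (L : ℝ) ^ 2 := by
      have h6 : ((1 - η) * z) ^ 2 ≤ (L : ℝ) ^ 2 := pow_le_pow_left₀ (by positivity) hL3 2
      rw [mul_pow, hz2] at h6
      refine le_trans ?_ h6
      have e : y / (8 * u) = 1 / 4 * (2 * (1 / 4) * (y / u)) := by field_simp; ring
      rw [e]
      refine mul_le_mul hq ?_ (by positivity) (by positivity)
      nlinarith
    have h6 := Real.log_le_log (by positivity) h5
    rw [Real.log_pow, Real.log_div hy.ne' (by positivity),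
      Real.log_mul (by norm_num) hu0.ne', ← hu] at h6
    rw [div_le_iff₀ hη] at h4
    push_cast at h6
    linarith
  have hlogL0 : 0 ≤ Real.log L := Real.log_natCast_nonneg L
  refine ⟨L, ?_, ?_, ?_⟩
  · have : (L0 : ℝ) < L + 1 := by linarith
    exact Nat.lt_succ_iff.1 (by exact_mod_cast this)
  · have h5 : (L : ℝ) ^ 2 * Real.log L ≤ z ^ 2 * (u / 2) :=
      mul_le_mul hLsq hlogL hlogL0 (by positivity)
    have h6 : z ^ 2 * (u / 2) = (1 - η) ^ 2 * y := by rw [hz2]; field_simp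
    have h7 : (1 + η) * (1 - η) ^ 2 ≤ 1 := by nlinarith [mul_nonneg hη.le hη.le]
    have h8 := mul_le_mul_of_nonneg_left (h5.trans h6.le) (by linarith : 0 ≤ 1 + η)
    have h9 := mul_le_mul_of_nonneg_right h7 hy.le
    linarith
  · have h5 : Real.sqrt (y * u) = Real.sqrt (y / u) * u := by
      rw [show y * u = y / u * u ^ 2 by field_simp, Real.sqrt_mul hyu0.le, Real.sqrt_sq hu0.le]
    have h6 : (1 - η) * z * ((1 - η) * u / 2) ≤ L * Real.log L :=
      mul_le_mul hL3 hlogL' (by positivity) hL0.le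
    refine le_trans (le_of_eq ?_) h6
    rw [h5]
    exact alg_id hs2 hs0

/-- The lower bound with constant `1 / √2 - ε`. -/
theorem lower_asymp {ε : ℝ} (hε : 0 < ε) : ∀ᶠ n : ℕ in atTop,
    Real.exp ((1 / Real.sqrt 2 - ε) * Real.sqrt (Real.log n * Real.log (Real.log n))) ≤
      c1 (binED n) := by
  set η := min (ε / 4) (1 / 2) with hηdef
  have hη : 0 < η := lt_min (by positivity) (by norm_num)
  have hη1 : η ≤ 1 / 2 := min_le_right _ _
  have hη2 : η ≤ ε / 4 := min_le_left _ _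
  obtain ⟨L0, hL0⟩ := eventually_atTop.1 (lower_levels hη (by linarith))
  filter_upwards [log_nat_atTop.eventually (low_real hη hη1 L0), eventually_ge_atTop 1]
    with n h hn
  obtain ⟨L, hL, h1, h2⟩ := h
  refine le_trans (Real.exp_le_exp.2 ?_) (hL0 L hL n hn h1)
  set s := Real.sqrt (Real.log n * Real.log (Real.log n)) with hs
  have hs0 : 0 ≤ s := Real.sqrt_nonneg _
  have h3 := mul_le_mul_of_nonneg_left h2 (by linarith : 0 ≤ 1 - η)
  refine le_trans ?_ h3
  rw [← mul_assoc]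
  refine mul_le_mul_of_nonneg_right ?_ hs0
  have h4 : 1 + (4 : ℕ) * (-η) ≤ (1 + -η) ^ 4 := one_add_mul_le_pow (by linarith) 4
  have h5 : (1 : ℝ) ≤ Real.sqrt 2 := Real.one_le_sqrt.2 (by norm_num)
  have h6 : (1 - η) * ((1 - η) ^ 3 / Real.sqrt 2) = (1 + -η) ^ 4 / Real.sqrt 2 := by ring
  rw [h6, le_div_iff₀ (by linarith), sub_mul, one_div_mul_cancel (by linarith)]
  push_cast at h4
  nlinarith

theorem both2 {ε : ℝ} (hε : 0 < ε) : ∃ n₀ : ℕ, ∀ (α : Type) [Finite α] [Nontrivial α] (n : ℕ),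
    n₀ ≤ n →
      Real.exp ((1 / Real.sqrt 2 - ε) * Real.sqrt (Real.log n * Real.log (Real.log n))) ≤
        c1 (binED n) ∧
      c1 (binED n) ≤ c1 (wordED α n) ∧ c1 (wordED α n) ≤ c1 (upToED α n) ∧
      c1 (upToED α n) ≤
        Real.exp ((2 + ε) * Real.sqrt (Real.log n * Real.log (Real.log n))) := by
  obtain ⟨n₀, h⟩ := eventually_atTop.1 ((lower_asymp hε).and (upper_asymp hε))
  refine ⟨n₀, fun α _ _ n hn => ⟨(h n hn).1, ?_, word_le_upto α n, (h n hn).2 α⟩⟩
  obtain ⟨e, he, hiso⟩ := bin_embed α n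
  exact c1_restrict e he hiso fun x y => Nat.cast_nonneg _

theorem growth2 : (fun n : ℕ => Real.log (c1 (binED n))) =Θ[atTop]
    fun n : ℕ => Real.sqrt (Real.log n * Real.log (Real.log n)) := by
  have h5 : Real.sqrt 2 ≤ 2 := Real.sqrt_le_iff.2 ⟨by norm_num, by norm_num⟩
  have hc : (1 : ℝ) / 4 ≤ 1 / Real.sqrt 2 - 1 / 4 := by
    have := one_div_le_one_div_of_le (by positivity : 0 < Real.sqrt 2) h5
    linarith
  obtain ⟨n₀, h⟩ := both2 (ε := 1 / 4) (by norm_num)
  have hlog : ∀ n, n₀ ≤ n → 1 / 4 * Real.sqrt (Real.log n * Real.log (Real.log n)) ≤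
      Real.log (c1 (binED n)) ∧ Real.log (c1 (binED n)) ≤
      (2 + 1 / 4) * Real.sqrt (Real.log n * Real.log (Real.log n)) := by
    intro n hn
    obtain ⟨h1, h2, h3, h4⟩ := h Bool n hn
    have hpos : 0 < c1 (binED n) := (Real.exp_pos _).trans_le h1
    exact ⟨(mul_le_mul_of_nonneg_right hc (Real.sqrt_nonneg _)).trans
      ((Real.le_log_iff_exp_le hpos).2 h1),
      (Real.log_le_iff_le_exp hpos).2 (h2.trans (h3.trans h4))⟩
  constructor
  · refine IsBigO.of_bound (2 + 1 / 4) ?_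
    filter_upwards [eventually_ge_atTop n₀] with n hn
    obtain ⟨h1, h2⟩ := hlog n hn
    have h3 : 0 ≤ Real.log (c1 (binED n)) := le_trans (by positivity) h1
    rw [Real.norm_eq_abs, Real.norm_eq_abs, abs_of_nonneg h3, abs_of_nonneg (Real.sqrt_nonneg _)]
    exact h2
  · refine IsBigO.of_bound 4 ?_
    filter_upwards [eventually_ge_atTop n₀] with n hn
    obtain ⟨h1, h2⟩ := hlog n hn
    have h3 : 0 ≤ Real.log (c1 (binED n)) := le_trans (by positivity) h1
    rw [Real.norm_eq_abs, Real.norm_eq_abs, abs_of_nonneg h3, abs_of_nonneg (Real.sqrt_nonneg _)]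
    linarith

end Vale.Agent.N238
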