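import Vale.Agent.P238.H360.Fin

/-!
# N238 / Up : the upper bound with unequal blocks
-/

set_option autoImplicit false

namespace Vale.Agent.N238

open Finset Filter Vale.Agent.P238 Vale.Agent.P238.Full Vale.Agent.P238.H360

theorem iter2 {A : Type} [Fintype A] [DecidableEq A] {N : ℕ} (hN : 1 ≤ N) : ∀ k : ℕ,
    ∀ m ≤ min ((108 * (Nat.log 2 N + 1) ^ 2) ^ (k.choose 2)) N, ∃ d : (ℕ → A) → (ℕ → A) → ℝ,
      Good m ((108 * ((Nat.log 2 N + 1 : ℕ) : ℝ) ^ 2) ^ k) d := by
  intro k
  set R : ℕ := 108 * (Nat.log 2 N + 1) ^ 2 with hR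
  have hR1 : 1 ≤ R := Nat.one_le_iff_ne_zero.2 (by positivity)
  set g : ℝ := ((Nat.log 2 N + 1 : ℕ) : ℝ) with hg
  have hg1 : 1 ≤ g := by rw [hg]; exact_mod_cast Nat.succ_le_succ (Nat.zero_le _)
  set r : ℝ := 108 * g ^ 2 with hr
  have hRr : (R : ℝ) = r := by rw [hR, hr, hg]; push_cast; ring
  induction k with
  | zero =>
    intro m hm
    obtain ⟨d, hd⟩ := H360.base (A := A) m (by
      have := (le_min_iff.1 hm).1
      simpa using this)
    exact ⟨d, hd.mono (by simp)⟩
  | succ k ih =>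
    intro m hm
    set M : ℕ := min (R ^ (k.choose 2)) N with hMdef
    have hM : 1 ≤ M := le_min (Nat.one_le_pow _ _ hR1) hN
    have hMN : M ≤ N := min_le_right _ _
    have hr1 : 1 ≤ r := by nlinarith
    have hrk : 1 ≤ r ^ k := one_le_pow₀ hr1
    have hD0 : 0 ≤ r ^ k := by positivity
    have hmb : m ≤ R ^ k * M := by
      have h1 := (le_min_iff.1 hm).1
      have h2 := (le_min_iff.1 hm).2
      have h3 : (k + 1).choose 2 = k + k.choose 2 := by
        rw [Nat.choose_succ_succ', Nat.choose_one_right]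
      rw [h3, pow_add] at h1
      rw [hMdef, mul_min]
      exact le_min h1 (h2.trans (Nat.le_mul_of_pos_left _ (Nat.one_le_pow _ _ hR1)))
    obtain ⟨d, hd⟩ := H360.step (A := A) (M := M) (b := R ^ k) hM hD0 ih m hmb
    refine ⟨d, hd.mono ?_⟩
    have hL : ((Nat.log 2 M + 1 : ℕ) : ℝ) ≤ g := by
      rw [hg]
      exact_mod_cast Nat.succ_le_succ (Nat.log_mono_right hMN)
    have hL0 : (0 : ℝ) ≤ ((Nat.log 2 M + 1 : ℕ) : ℝ) := Nat.cast_nonneg _
    have hlog2a : 0 < Real.log 2 := Real.log_pos (by norm_num)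
    have hlog2b : Real.log 2 ≤ 1 := by
      have := Real.log_two_lt_d9
      linarith
    have hMr : (1 : ℝ) ≤ (M : ℝ) := by exact_mod_cast hM
    have hlogM : Real.log (M : ℝ) ≤ g := by
      have h1 : (M : ℝ) ≤ (2 : ℝ) ^ (Nat.log 2 M + 1) := by
        exact_mod_cast (Nat.lt_pow_succ_log_self (by norm_num) M).le
      have h2 := Real.log_le_log (by linarith) h1
      rw [Real.log_pow] at h2
      refine h2.trans ?_
      calc ((Nat.log 2 M + 1 : ℕ) : ℝ) * Real.log 2 ≤ g * 1 :=
            mul_le_mul hL hlog2b hlog2a.le (by linarith)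
        _ = g := mul_one _
    have hq : Real.log 2 + 2 * Real.log (M : ℝ) ≤ 3 * g := by linarith
    have hlogM0 : 0 ≤ Real.log (M : ℝ) := Real.log_nonneg hMr
    have hX : (2 : ℝ) + 2 * (Real.log 2 + 2 * Real.log (M : ℝ)) * r ^ k ≤
        2 + 2 * (3 * g) * r ^ k := by
      have := mul_le_mul_of_nonneg_right (mul_le_mul_of_nonneg_left hq (by norm_num : (0:ℝ) ≤ 2)) hD0
      linarith
    have hb : ((R ^ k : ℕ) : ℝ) = r ^ k := by rw [Nat.cast_pow, hRr]
    rw [hb]
    calc 12 * ((Nat.log 2 M + 1 : ℕ) : ℝ) * r ^ k + 12 * ((Nat.log 2 M + 1 : ℕ) : ℝ) *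
          (2 + 2 * (Real.log 2 + 2 * Real.log (M : ℝ)) * r ^ k)
        ≤ 12 * g * r ^ k + 12 * g * (2 + 2 * (3 * g) * r ^ k) := by
          refine add_le_add ?_ ?_
          · exact mul_le_mul_of_nonneg_right (mul_le_mul_of_nonneg_left hL (by norm_num)) hD0
          · refine mul_le_mul (mul_le_mul_of_nonneg_left hL (by norm_num)) hX ?_ (by linarith)
            have : 0 ≤ Real.log 2 + 2 * Real.log (M : ℝ) := by linarith
            positivity
      _ ≤ r ^ (k + 1) := by
          have h2 : g ≤ g ^ 2 := by nlinarith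
          have e1 : 12 * g * r ^ k ≤ 12 * g ^ 2 * r ^ k := by
            have h3 := mul_le_mul_of_nonneg_right h2 hD0
            linarith
          have e2 : 24 * g ≤ 24 * g ^ 2 * r ^ k := by
            have h3 := mul_le_mul h2 hrk zero_le_one (by positivity)
            linarith
          have e3 : r ^ (k + 1) = 108 * g ^ 2 * r ^ k := by
            rw [pow_succ, mul_comm]
          rw [e3]
          nlinarith [e1, e2]

/-- The explicit upper bound for all words of length at most `n`. -/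
theorem upto_upper2 (α : Type) [Finite α] {n k : ℕ} (hn : 1 ≤ n)
    (h2 : 2 * n ≤ (108 * (Nat.log 2 (2 * n) + 1) ^ 2) ^ (k * (k - 1) / 2)) :
    c1 (upToED α n) ≤ (108 * ((Nat.log 2 (2 * n) + 1 : ℕ) : ℝ) ^ 2) ^ k := by
  classical
  have := Fintype.ofFinite α
  obtain ⟨d, hd⟩ := iter2 (A := Option α) (N := 2 * n) (by omega) k (2 * n)
    (le_min (by rw [Nat.choose_two_right]; exact h2) le_rfl)
  refine c1_le (d := fun x y => d (pad none (x.1.map some)) (pad none (y.1.map some)))
    (hd.cut.comap fun x : {l : List α // l.length ≤ n} => pad none (x.1.map some))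
    (by positivity) (fun x y hxy => zero_lt_one.trans_le (upToED_pos hxy)) (fun x y => ?_)
    (fun x y => ?_)
  · have h3 : ∀ z : {l : List α // l.length ≤ n},
        (pre (pad none (z.1.map some)) (2 * n)).filterMap id = z.1 := by
      intro z
      have h4 := pre_pad none (z.1.map some) (2 * n - z.1.length)
      have h5 := z.2
      rw [List.length_map, show z.1.length + (2 * n - z.1.length) = 2 * n by omega] at h4
      rw [h4, List.filterMap_append]
      have h6 : (List.replicate (2 * n - z.1.length) (none : Option α)).filterMap id = [] := by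
        rw [List.filterMap_eq_nil_iff]
        intro a ha
        exact List.eq_of_mem_replicate ha
      rw [h6, List.append_nil, List.filterMap_map]
      simp
    have h1 := ED_filterMap_le id (pre (pad none (x.1.map some)) (2 * n))
      (pre (pad none (y.1.map some)) (2 * n))
    rw [h3, h3] at h1
    calc upToED α n x y ≤ (ED (pre (pad none (x.1.map some)) (2 * n))
          (pre (pad none (y.1.map some)) (2 * n)) : ℝ) := by
          unfold upToED
          exact_mod_cast h1
      _ ≤ _ := hd.lb _ _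
  · have h1 := ED_le_max (x.1.map some) (y.1.map some)
    rw [List.length_map, List.length_map] at h1
    have h5 := steps_pad hd (by omega) none (ED_steps (x.1.map some) (y.1.map some))
      (by rw [List.length_map]; have := x.2; have := y.2; omega)
    refine h5.trans (mul_le_mul_of_nonneg_left ?_ (by positivity))
    unfold upToED
    exact_mod_cast ED_map_le some x.1 y.1

theorem log_nat_atTop : Tendsto (fun n : ℕ => Real.log n) atTop atTop :=
  Real.tendsto_log_atTop.comp tendsto_natCast_atTop_atTop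

theorem log_le_eventually {c : ℝ} (hc : 0 < c) : ∀ᶠ y : ℝ in atTop, Real.log y ≤ c * y := by
  have h := Real.isLittleO_log_id_atTop.bound hc
  filter_upwards [h, eventually_ge_atTop (0 : ℝ)] with y hy hy0
  rw [Real.norm_eq_abs, Real.norm_eq_abs, id, abs_of_nonneg hy0] at hy
  exact (le_abs_self _).trans hy

/-- The real-variable estimate behind the upper bound. -/
theorem up_real {ε : ℝ} (hε : 0 < ε) : ∀ᶠ y : ℝ in atTop, ∀ ρ : ℝ, 0 < ρ →
    ρ ≤ 2 * Real.log y + 7 →
    (Real.sqrt (2 * (y + 1) / ρ) + 2) * ρ ≤ (2 + ε) * Real.sqrt (y * Real.log y) := by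
  set η := ε / 3 with hη
  have hη0 : 0 < η := by positivity
  filter_upwards [eventually_ge_atTop (1 / η), Real.tendsto_log_atTop.eventually_ge_atTop 7,
    Real.tendsto_log_atTop.eventually_ge_atTop (7 / (2 * η)),
    log_le_eventually (c := η ^ 2 / 36) (by positivity), eventually_gt_atTop (0 : ℝ)]
    with y h1 h2 h3 h4 hy ρ hρ hρ2
  set u := Real.log y with hu
  have hu0 : 0 < u := by linarith
  have a1 : y + 1 ≤ (1 + η) * y := by
    rw [div_le_iff₀ hη0] at h1
    linarith
  have a2 : ρ ≤ 2 * (1 + η) * u := by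
    rw [div_le_iff₀ (by positivity)] at h3
    linarith
  have hs0 : 0 ≤ Real.sqrt (y * u) := Real.sqrt_nonneg _
  have hs2 : Real.sqrt (y * u) ^ 2 = y * u := Real.sq_sqrt (by positivity)
  have b1 : Real.sqrt (2 * (y + 1) / ρ) * ρ ≤ 2 * (1 + η) * Real.sqrt (y * u) := by
    refine le_of_sq_le_sq ?_ (by positivity)
    rw [mul_pow, mul_pow (2 * (1 + η)), hs2, Real.sq_sqrt (by positivity)]
    have e : 2 * (y + 1) / ρ * ρ ^ 2 = 2 * ((y + 1) * ρ) := by field_simp
    rw [e]
    have := mul_le_mul a1 a2 hρ.le (by positivity)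
    nlinarith
  have b2 : 6 * u ≤ η * Real.sqrt (y * u) := by
    refine le_of_sq_le_sq ?_ (by positivity)
    rw [mul_pow, mul_pow η, hs2]
    have := mul_le_mul_of_nonneg_right h4 hu0.le
    nlinarith
  have e : 2 + ε = 2 * (1 + η) + η := by rw [hη]; ring
  rw [e]
  nlinarith

/-- The upper bound with constant `2 + ε`. -/
theorem upper_asymp {ε : ℝ} (hε : 0 < ε) : ∀ᶠ n : ℕ in atTop, ∀ (α : Type) [Finite α],
    c1 (upToED α n) ≤
      Real.exp ((2 + ε) * Real.sqrt (Real.log n * Real.log (Real.log n))) := by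
  filter_upwards [log_nat_atTop.eventually (up_real hε), eventually_ge_atTop 16]
    with n h hn α _
  obtain ⟨hl1, hl2⟩ := loglog_ge hn
  set y := Real.log n with hy
  have hy1 : 1 ≤ y := hl1.trans hl2
  set R : ℕ := 108 * (Nat.log 2 (2 * n) + 1) ^ 2 with hR
  have hRr : (R : ℝ) = 108 * ((Nat.log 2 (2 * n) + 1 : ℕ) : ℝ) ^ 2 := by
    rw [hR]; push_cast; ring
  have hR1 : 108 ≤ R := Nat.le_mul_of_pos_right _ (by positivity)
  have hR1' : (108 : ℝ) ≤ R := by exact_mod_cast hR1
  set ρ := Real.log R with hρ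
  have hρ0 : 0 < ρ := Real.log_pos (by linarith)
  have hn0 : (0 : ℝ) < n := by exact_mod_cast (by omega : 0 < n)
  have hl2a := Real.log_two_gt_d9
  have hl2b := Real.log_two_lt_d9
  have hlog2n : Real.log ((2 * n : ℕ) : ℝ) ≤ y + 1 := by
    push_cast
    rw [Real.log_mul (by norm_num) hn0.ne']
    linarith
  have hy2 : 2.7 ≤ y := by
    have h2 : Real.log 16 ≤ Real.log n := Real.log_le_log (by norm_num) (by exact_mod_cast hn)
    have h3 : Real.log 16 = 4 * Real.log 2 := by
      rw [show (16 : ℝ) = 2 ^ 4 by norm_num, Real.log_pow]; norm_num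
    linarith
  have hg : ((Nat.log 2 (2 * n) + 1 : ℕ) : ℝ) ≤ 3 * y := by
    have h1 : ((2 ^ Nat.log 2 (2 * n) : ℕ) : ℝ) ≤ ((2 * n : ℕ) : ℝ) := by
      exact_mod_cast Nat.pow_log_le_self 2 (by omega)
    have h2 := Real.log_le_log (by positivity) h1
    rw [Nat.cast_pow, Real.log_pow] at h2
    have h5 : (0 : ℝ) ≤ Nat.log 2 (2 * n) := Nat.cast_nonneg _
    have h6 := h2.trans hlog2n
    push_cast at h6 ⊢
    nlinarith
  have hρ2 : ρ ≤ 2 * Real.log y + 7 := by
    have h1 : (R : ℝ) ≤ 2 ^ 10 * y ^ 2 := by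
      rw [hRr]
      have h0 : (0 : ℝ) ≤ ((Nat.log 2 (2 * n) + 1 : ℕ) : ℝ) := Nat.cast_nonneg _
      nlinarith
    have h2 := Real.log_le_log (by linarith) h1
    rw [Real.log_mul (by norm_num) (by positivity), Real.log_pow, Real.log_pow] at h2
    push_cast at h2
    linarith
  have hmain := h ρ hρ0 hρ2
  set t := Real.sqrt (2 * (y + 1) / ρ) with ht
  have ht0 : 0 ≤ t := Real.sqrt_nonneg _
  have ht2 : t ^ 2 = 2 * (y + 1) / ρ := Real.sq_sqrt (by positivity)
  set j := ⌈t⌉₊ with hj
  have hj1 : t ≤ j := Nat.le_ceil _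
  have hj2 : (j : ℝ) < t + 1 := Nat.ceil_lt_add_one ht0
  have hk : 2 * n ≤ R ^ ((j + 1) * (j + 1 - 1) / 2) := by
    rw [← Nat.choose_two_right]
    have h1 : (((j + 1).choose 2 : ℕ) : ℝ) = (j + 1) * j / 2 := by
      rw [Nat.cast_choose_two]; push_cast; ring
    have h2 : y + 1 ≤ (((j + 1).choose 2 : ℕ) : ℝ) * ρ := by
      rw [h1]
      have h3 : t ^ 2 * ρ = 2 * (y + 1) := by rw [ht2]; field_simp
      have h4 : t ^ 2 ≤ (j + 1) * j := by nlinarith
      have h5 := mul_le_mul_of_nonneg_right h4 hρ0.le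
      linarith
    have h3 : ((2 * n : ℕ) : ℝ) ≤ (R : ℝ) ^ ((j + 1).choose 2) := by
      rw [← Real.log_le_log_iff (by positivity) (by positivity), Real.log_pow]
      exact hlog2n.trans h2
    exact_mod_cast h3
  refine (upto_upper2 α (by omega) hk).trans ?_
  rw [← hRr, ← Real.exp_log (show (0 : ℝ) < R by linarith), ← Real.exp_nat_mul]
  refine Real.exp_le_exp.2 (le_trans ?_ hmain)
  refine mul_le_mul_of_nonneg_right ?_ hρ0.le
  push_cast
  linarith

end Vale.Agent.N238
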